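import Vale.Agent.P314.Words

/-!
The order bound for solutions of a unipotent `q`-difference system.
-/

namespace Vale.Agent.P314

open Polynomial

section Core

variable {K : Type*} [Field K] {ι : Type*} [Fintype ι] [DecidableEq ι] {w : ℕ}

/-- The common denominator. -/
noncomputable def PP (a : ι → K) : K[X] := ∏ i, (1 - C (a i) * X)

/-- The numerators. -/
noncomputable def QQ (a : ι → K) (i : ι) : K[X] :=
  C (a i) * X * ∏ j ∈ Finset.univ.erase i, (1 - C (a j) * X)

/-- One step of the cyclic vector iteration. -/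
noncomputable def step (q : K) (a : ι → K) (A : ι → Fin w → Fin w → K) (y : Fin w → K[X]) :
    Fin w → K[X] := fun j =>
  PP a * (y j).comp (C q * X) - ∑ i, QQ a i * ∑ k, C (A i k j) * (y k).comp (C q * X)

theorem PP_eq (a : ι → K) (i : ι) :
    PP a = (1 - C (a i) * X) * ∏ j ∈ Finset.univ.erase i, (1 - C (a j) * X) :=
  (Finset.mul_prod_erase _ (fun j => (1 - C (a j) * X : K[X])) (Finset.mem_univ i)).symm

omit [DecidableEq ι] in
theorem PP_ne_zero (a : ι → K) : PP a ≠ 0 := by
  intro h
  have := congrArg (eval 0) h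
  simp [PP, eval_prod] at this

theorem natDegree_lin (c : K) : (1 - C c * X : K[X]).natDegree ≤ 1 := by
  compute_degree

omit [DecidableEq ι] in
theorem natDegree_PP (a : ι → K) : (PP a).natDegree ≤ Fintype.card ι := by
  refine (natDegree_prod_le _ _).trans ?_
  refine (Finset.sum_le_card_nsmul _ _ 1 (fun i _ => natDegree_lin _)).trans ?_
  simp

theorem natDegree_QQ (a : ι → K) (i : ι) : (QQ a i).natDegree ≤ Fintype.card ι := by
  refine natDegree_mul_le.trans ?_
  have h1 : (C (a i) * X : K[X]).natDegree ≤ 1 := by compute_degree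
  have h2 : (∏ j ∈ Finset.univ.erase i, (1 - C (a j) * X : K[X])).natDegree ≤
      Fintype.card ι - 1 := by
    refine (natDegree_prod_le _ _).trans ?_
    refine (Finset.sum_le_card_nsmul _ _ 1 (fun i _ => natDegree_lin _)).trans ?_
    simp
  have h3 : 0 < Fintype.card ι := Fintype.card_pos_iff.2 ⟨i⟩
  omega

theorem natDegree_dil (q : K) (p : K[X]) : (p.comp (C q * X)).natDegree ≤ p.natDegree := by
  refine natDegree_comp_le.trans ?_
  have h1 : (C q * X : K[X]).natDegree ≤ 1 := by compute_degree
  nlinarith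

theorem natDegree_step (q : K) (a : ι → K) (A : ι → Fin w → Fin w → K) (y : Fin w → K[X])
    (d : ℕ) (h : ∀ j, (y j).natDegree ≤ d) (j : Fin w) :
    (step q a A y j).natDegree ≤ Fintype.card ι + d := by
  refine (natDegree_sub_le _ _).trans (max_le ?_ ?_)
  · refine natDegree_mul_le.trans ?_
    have := natDegree_PP a
    have := (natDegree_dil q (y j)).trans (h j)
    omega
  · refine natDegree_sum_le_of_forall_le _ _ (fun i _ => natDegree_mul_le.trans ?_)
    have h1 := natDegree_QQ a i
    have h2 : (∑ k, C (A i k j) * (y k).comp (C q * X)).natDegree ≤ d :=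
      natDegree_sum_le_of_forall_le _ _ (fun k _ =>
        (natDegree_C_mul_le _ _).trans ((natDegree_dil q (y k)).trans (h k)))
    omega

theorem pair_step {Ω : Type*} [CommRing Ω] (ρ : K[X] →+* Ω) (q : K) (a : ι → K)
    (A : ι → Fin w → Fin w → K) (y : Fin w → K[X]) (x : Fin w → Ω) :
    ∑ j, ρ (step q a A y j) * x j =
      ∑ k, ρ ((y k).comp (C q * X)) *
        (ρ (PP a) * x k - ∑ i, ρ (QQ a i) * ∑ j, ρ (C (A i k j)) * x j) := by
  simp only [step, map_sub, map_mul, map_sum, sub_mul, mul_sub, Finset.sum_sub_distrib,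
    Finset.mul_sum, Finset.sum_mul]
  congr 1
  · exact Finset.sum_congr rfl (fun j _ => by ring)
  · rw [Finset.sum_comm]
    conv_rhs => rw [Finset.sum_comm]
    refine Finset.sum_congr rfl (fun i _ => ?_)
    rw [Finset.sum_comm]
    exact Finset.sum_congr rfl (fun k _ => Finset.sum_congr rfl (fun j _ => by ring))

theorem coe_dil (q : K) (p : K[X]) :
    ((p.comp (C q * X) : K[X]) : PowerSeries K) = PowerSeries.rescale q (p : PowerSeries K) := by
  ext n
  rw [PowerSeries.coeff_rescale, coeff_coe, coeff_coe, comp_C_mul_X_coeff, mul_comm]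

theorem order_step (q : K) (a : ι → K) (A : ι → Fin w → Fin w → K) (γ : ι → PowerSeries K)
    (hγ : ∀ i, γ i * (1 - PowerSeries.C (a i) * PowerSeries.X) =
      PowerSeries.C (a i) * PowerSeries.X)
    (e : Fin w → PowerSeries K)
    (he : ∀ k, e k - PowerSeries.rescale q (e k) =
      ∑ i, γ i * ∑ j, PowerSeries.C (A i k j) * e j)
    (D : ℕ) (y : Fin w → K[X])
    (h : PowerSeries.X ^ D ∣ ∑ j, coeToPowerSeries.ringHom (y j) * e j) :
    PowerSeries.X ^ D ∣ ∑ j, coeToPowerSeries.ringHom (step q a A y j) * e j := by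
  rw [pair_step]
  have hQ : ∀ i, coeToPowerSeries.ringHom (QQ a i) = coeToPowerSeries.ringHom (PP a) * γ i := by
    intro i
    rw [PP_eq a i, QQ]
    simp only [map_mul, map_sub, map_one, coeToPowerSeries.ringHom_apply, coe_C, coe_X]
    linear_combination (-(↑(∏ j ∈ Finset.univ.erase i, (1 - C (a j) * X : K[X])) :
      PowerSeries K)) * hγ i
  have h1 : ∀ k, coeToPowerSeries.ringHom (PP a) * e k -
      ∑ i, coeToPowerSeries.ringHom (QQ a i) * ∑ j, coeToPowerSeries.ringHom (C (A i k j)) * e j =
      coeToPowerSeries.ringHom (PP a) * PowerSeries.rescale q (e k) := by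
    intro k
    simp only [hQ, coeToPowerSeries.ringHom_apply, coe_C, mul_assoc, ← Finset.mul_sum]
    rw [← he k]; ring
  have h2 : ∑ k, coeToPowerSeries.ringHom ((y k).comp (C q * X)) *
      (coeToPowerSeries.ringHom (PP a) * PowerSeries.rescale q (e k)) =
      coeToPowerSeries.ringHom (PP a) *
        PowerSeries.rescale q (∑ j, coeToPowerSeries.ringHom (y j) * e j) := by
    simp only [map_sum, map_mul, Finset.mul_sum, coeToPowerSeries.ringHom_apply, coe_dil]
    exact Finset.sum_congr rfl (fun k _ => by ring)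
  simp only [h1]
  rw [h2]
  refine Dvd.dvd.mul_left ?_ _
  rw [PowerSeries.X_pow_dvd_iff] at h ⊢
  intro m hm
  rw [PowerSeries.coeff_rescale, h m hm, mul_zero]

variable {L : Type*} [Field L] [Algebra K[X] L] [IsFractionRing K[X] L]

theorem ann_eq_zero {σ : L ≃+* L} {q : K} (hq : q ≠ 0)
    (hq1 : ∀ m : ℕ, q ^ m = 1 → m = 0)
    (hσ : ∀ p : K[X], σ (algebraMap K[X] L p) = algebraMap K[X] L (p.comp (C q * X)))
    (a : ι → K) (ha : ∀ i, a i ≠ 0) (horb : ∀ i j (m : ℕ), a i * q ^ m = a j → i = j)
    (A : ι → Fin w → Fin w → K) (cv : List ι → Fin w → K)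
    (hcv : ∀ u i j, cv (u ++ [i]) j = ∑ k, cv u k * A i k j)
    (N : ℕ) (hN : ∀ u : List ι, N ≤ u.length → cv u = 0)
    (hspan : Submodule.span K (Set.range cv) = ⊤)
    (x : Fin w → L)
    (hx : ∀ m, ∑ j, algebraMap K[X] L ((step q a A)^[m] (fun j => C (cv [] j)) j) * x j = 0) :
    x = 0 := by
  have hinj := IsFractionRing.injective K[X] L
  set ρ := algebraMap K[X] L with hρ
  have hlin : ∀ i, ρ (1 - C (a i) * X) ≠ 0 := by
    intro i
    rw [map_ne_zero_iff _ hinj]
    intro h
    have := congrArg (eval 0) h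
    simp at this
  set g : ι → L := fun i => ρ (C (a i) * X) / ρ (1 - C (a i) * X) with hg
  have hg1 : ∀ i, g i * ρ (1 - C (a i) * X) = ρ (C (a i) * X) :=
    fun i => div_mul_cancel₀ _ (hlin i)
  have hP : ρ (PP a) ≠ 0 := (map_ne_zero_iff _ hinj).2 (PP_ne_zero a)
  have hQ : ∀ i, ρ (QQ a i) = ρ (PP a) * g i := by
    intro i
    rw [PP_eq a i, QQ, map_mul _ (C (a i) * X), map_mul _ (1 - C (a i) * X), ← hg1 i]; ring
  have hC : ∀ c : K, σ.symm (ρ (C c)) = ρ (C c) := by
    intro c
    rw [RingEquiv.symm_apply_eq, hσ]; simp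
  let Ann : Submodule L (Fin w → L) :=
    { carrier := {x | ∀ m, ∑ j, ρ ((step q a A)^[m] (fun j => C (cv [] j)) j) * x j = 0}
      add_mem' := by
        intro x y hx hy m
        simp only [Pi.add_apply, mul_add, Finset.sum_add_distrib, hx m, hy m, add_zero]
      zero_mem' := by intro m; simp
      smul_mem' := by
        intro c x hx m
        have := hx m
        simp only [Pi.smul_apply, smul_eq_mul, mul_left_comm _ c, ← Finset.mul_sum, this,
          mul_zero] }
  let Λ : (Fin w → L) →ₗ[L] (List ι → L) :=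
    { toFun := fun x u => ∑ j, ρ (C (cv u j)) * x j
      map_add' := by
        intro x y; funext u
        simp only [Pi.add_apply, mul_add, Finset.sum_add_distrib]
      map_smul' := by
        intro c x; funext u
        simp only [Pi.smul_apply, smul_eq_mul, mul_left_comm _ c, ← Finset.mul_sum,
          RingHom.id_apply] }
  have key := words_lemma σ g (residue_lemma hq hq1 hσ a ha horb g hg1) (Ann.map Λ)
    (by
      rintro _ ⟨x, hx, rfl⟩
      refine ⟨fun k => σ.symm (x k - ∑ i, g i * ∑ j, ρ (C (A i k j)) * x j), ?_, ?_⟩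
      · intro m
        have h1 := hx (m + 1)
        rw [Function.iterate_succ_apply', pair_step] at h1
        apply σ.injective
        apply mul_left_cancel₀ hP
        rw [map_zero, mul_zero, ← h1, map_sum, Finset.mul_sum]
        refine Finset.sum_congr rfl (fun k _ => ?_)
        rw [map_mul, hσ, RingEquiv.apply_symm_apply]
        simp only [hQ, mul_assoc, ← Finset.mul_sum]
        ring
      · funext u
        change ∑ j, ρ (C (cv u j)) * σ.symm _ =
          σ.symm (∑ j, ρ (C (cv u j)) * x j - ∑ i, g i * ∑ j, ρ (C (cv (u ++ [i]) j)) * x j)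
        apply σ.injective
        rw [RingEquiv.apply_symm_apply, map_sum]
        have hC' : ∀ c : K, σ (ρ (C c)) = ρ (C c) := by
          intro c; rw [hσ]; simp
        simp only [map_mul, hC', RingEquiv.apply_symm_apply, hcv, map_sum, mul_sub,
          Finset.sum_sub_distrib, Finset.mul_sum, Finset.sum_mul]
        congr 1
        rw [Finset.sum_comm]
        refine Finset.sum_congr rfl (fun i _ => ?_)
        rw [Finset.sum_comm]
        exact Finset.sum_congr rfl (fun j _ => Finset.sum_congr rfl (fun k _ => by ring)))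
    (by
      rintro _ ⟨x, hx, rfl⟩
      exact hx 0)
    N (Λ x) ⟨x, hx, rfl⟩
    (by
      intro u hu
      change ∑ j, ρ (C (cv u j)) * x j = 0
      simp [hN u hu])
  have h2 : ∀ v ∈ Submodule.span K (Set.range cv), ∑ j, ρ (C (v j)) * x j = 0 := by
    intro v hv
    induction hv using Submodule.span_induction with
    | mem v hv => obtain ⟨u, rfl⟩ := hv; exact congrFun key u
    | zero => simp
    | add v v' _ _ h h' =>
      simp only [Pi.add_apply, map_add, add_mul, Finset.sum_add_distrib, h, h', add_zero]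
    | smul c v _ h =>
      simp only [Pi.smul_apply, smul_eq_mul, map_mul, mul_assoc, ← Finset.mul_sum, h, mul_zero]
  funext j
  have := h2 (Pi.single j 1) (by rw [hspan]; trivial)
  rw [Finset.sum_eq_single j (fun k _ hk => by simp [hk]) (by simp)] at this
  simpa using this

omit [DecidableEq ι] [Fintype ι] in
theorem lin_indep_of_semilinear {L : Type*} [Field L] (σ : L ≃+* L)
    (S : (Fin w → L) → (Fin w → L)) (hadd : ∀ y z, S (y + z) = S y + S z)
    (hsmul : ∀ c y, S (c • y) = σ c • S y) (U : ℕ → Fin w → L) (hU : ∀ m, U (m + 1) = S (U m))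
    (hann : ∀ x : Fin w → L, (∀ m, ∑ j, U m j * x j = 0) → x = 0) :
    LinearIndependent L (fun k : Fin w => U k) := by
  have h0 : S 0 = 0 := by simpa using hsmul 0 0
  have htop : Submodule.span L (Set.range U) = ⊤ := by
    by_contra h
    obtain ⟨f, hf, hle⟩ := Submodule.exists_le_ker_of_lt_top _ (lt_top_iff_ne_top.2 h)
    have := hann (fun i => f fun j => if i = j then 1 else 0) (fun m => by
      have h1 : f (U m) = 0 := hle (Submodule.subset_span ⟨m, rfl⟩)
      rw [LinearMap.pi_apply_eq_sum_univ] at h1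
      simpa using h1)
    apply hf
    refine LinearMap.ext (fun y => ?_)
    rw [LinearMap.pi_apply_eq_sum_univ]
    refine Finset.sum_eq_zero (fun i _ => ?_)
    rw [show (f fun j => if i = j then 1 else 0) = 0 from congrFun this i, smul_zero]
  have key : ∀ k, k ≤ w → LinearIndependent L (fun j : Fin k => U j) := by
    intro k
    induction k with
    | zero => intro _; exact linearIndependent_empty_type
    | succ k ih =>
      intro hk
      rw [linearIndependent_finSucc']
      refine ⟨ih (by omega), fun hmem => ?_⟩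
      set Nk := Submodule.span L (Set.range (fun j : Fin k => U j)) with hNk
      have hmem' : U k ∈ Nk := hmem
      have hle : ∀ j ≤ k, U j ∈ Nk := by
        intro j hj
        rcases hj.eq_or_lt with h | h
        · rw [h]; exact hmem'
        · exact Submodule.subset_span ⟨⟨j, h⟩, rfl⟩
      have hS : ∀ y ∈ Nk, S y ∈ Nk := by
        intro y hy
        induction hy using Submodule.span_induction with
        | mem y hy =>
          obtain ⟨j, rfl⟩ := hy
          rw [← hU]; exact hle _ j.2
        | zero => rw [h0]; exact Nk.zero_mem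
        | add y z _ _ h h' => rw [hadd]; exact Nk.add_mem h h'
        | smul c y _ h => rw [hsmul]; exact Nk.smul_mem _ h
      have hall : ∀ m, U m ∈ Nk := by
        intro m
        induction m with
        | zero => exact hle 0 (Nat.zero_le _)
        | succ m ih => rw [hU]; exact hS _ ih
      have h1 : Nk = ⊤ := by
        rw [eq_top_iff, ← htop, Submodule.span_le]
        rintro _ ⟨m, rfl⟩
        exact hall m
      have h2 : Module.finrank L Nk ≤ k := by
        have h3 := finrank_range_le_card (R := L) (fun j : Fin k => U j)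
        rw [Fintype.card_fin] at h3
        exact h3
      rw [h1] at h2
      simp at h2
      omega
  exact key w le_rfl

theorem core_order {q : K} (hq : q ≠ 0) (hq1 : ∀ m : ℕ, q ^ m = 1 → m = 0)
    (a : ι → K) (ha : ∀ i, a i ≠ 0) (horb : ∀ i j (m : ℕ), a i * q ^ m = a j → i = j)
    (A : ι → Fin w → Fin w → K) (cv : List ι → Fin w → K)
    (hcv : ∀ u i j, cv (u ++ [i]) j = ∑ k, cv u k * A i k j)
    (N : ℕ) (hN : ∀ u : List ι, N ≤ u.length → cv u = 0)
    (hspan : Submodule.span K (Set.range cv) = ⊤)
    (γ : ι → PowerSeries K)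
    (hγ : ∀ i, γ i * (1 - PowerSeries.C (a i) * PowerSeries.X) =
      PowerSeries.C (a i) * PowerSeries.X)
    (e : Fin w → PowerSeries K)
    (he : ∀ k, e k - PowerSeries.rescale q (e k) =
      ∑ i, γ i * ∑ j, PowerSeries.C (A i k j) * e j)
    (j0 : Fin w) (hj0 : PowerSeries.constantCoeff (e j0) ≠ 0)
    (D : ℕ) (hD : Fintype.card ι * w ^ 2 < D) :
    ¬ PowerSeries.X ^ D ∣ ∑ j, PowerSeries.C (cv [] j) * e j := by
  intro hdiv
  set U : ℕ → Fin w → K[X] := fun m => (step q a A)^[m] (fun j => C (cv [] j)) with hUdef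
  have hU : ∀ m, U (m + 1) = step q a A (U m) := fun m => Function.iterate_succ_apply' _ _ _
  have hdeg : ∀ m j, (U m j).natDegree ≤ Fintype.card ι * m := by
    intro m
    induction m with
    | zero => intro j; simp [hUdef]
    | succ m ih =>
      intro j
      rw [hU]
      have := natDegree_step q a A (U m) _ ih j
      rw [mul_add]; omega
  have hord : ∀ m, PowerSeries.X ^ D ∣ ∑ j, coeToPowerSeries.ringHom (U m j) * e j := by
    intro m
    induction m with
    | zero => simpa [hUdef] using hdiv
    | succ m ih => rw [hU]; exact order_step q a A γ hγ e he D _ ih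
  let _ : Invertible q := invertibleOfNonzero hq
  let σ0 : K[X] ≃+* K[X] := (algEquivCMulXAddC q 0).toRingEquiv
  have hσ0 : ∀ p, σ0 p = p.comp (C q * X) := by
    intro p
    simp [σ0, comp_eq_aeval]
  let σ : FractionRing K[X] ≃+* FractionRing K[X] := IsFractionRing.ringEquivOfRingEquiv σ0
  have hσ : ∀ p : K[X], σ (algebraMap K[X] (FractionRing K[X]) p) =
      algebraMap K[X] (FractionRing K[X]) (p.comp (C q * X)) := by
    intro p
    rw [IsFractionRing.ringEquivOfRingEquiv_algebraMap, hσ0]
  set ρ := algebraMap K[X] (FractionRing K[X]) with hρ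
  have hli := lin_indep_of_semilinear σ
    (fun y j => ρ (PP a) * σ (y j) - ∑ i, ρ (QQ a i) * ∑ k, ρ (C (A i k j)) * σ (y k))
    (by
      intro y z; funext j
      simp only [Pi.add_apply, map_add, mul_add, Finset.sum_add_distrib]; ring)
    (by
      intro c y; funext j
      simp only [Pi.smul_apply, smul_eq_mul, map_mul, mul_left_comm _ (σ c), ← Finset.mul_sum,
        mul_sub])
    (fun m j => ρ (U m j))
    (by
      intro m; funext j
      rw [hU]
      simp only [step, map_sub, map_mul, map_sum, hσ])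
    (fun x hx => ann_eq_zero hq hq1 hσ a ha horb A cv hcv N hN hspan x hx)
  let B : Matrix (Fin w) (Fin w) K[X] := fun k j => U k j
  have hdet : B.det ≠ 0 := by
    intro h
    have h1 : IsUnit (ρ.mapMatrix B) := Matrix.linearIndependent_rows_iff_isUnit.1 hli
    rw [Matrix.isUnit_iff_isUnit_det, ← RingHom.map_det, h, map_zero] at h1
    exact not_isUnit_zero h1
  have hdd : B.det.natDegree ≤ Fintype.card ι * w ^ 2 := by
    rw [Matrix.det_apply]
    refine natDegree_sum_le_of_forall_le _ _ (fun τ _ => (natDegree_smul_le _ _).trans ?_)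
    refine (natDegree_prod_le _ _).trans ?_
    refine (Finset.sum_le_card_nsmul _ _ (Fintype.card ι * w) (fun i _ => ?_)).trans ?_
    · exact (hdeg _ _).trans (Nat.mul_le_mul_left _ (τ i).2.le)
    · simp; nlinarith
  let B' : Matrix (Fin w) (Fin w) (PowerSeries K) := coeToPowerSeries.ringHom.mapMatrix B
  have h1 : B'.adjugate.mulVec (B'.mulVec e) = B'.det • e := by
    rw [Matrix.mulVec_mulVec, Matrix.adjugate_mul, Matrix.smul_mulVec, Matrix.one_mulVec]
  have h2 : PowerSeries.X ^ D ∣ B'.det * e j0 := by
    have := congrFun h1 j0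
    simp only [Pi.smul_apply, smul_eq_mul] at this
    rw [← this]
    change _ ∣ ∑ k, B'.adjugate j0 k * ∑ j, coeToPowerSeries.ringHom (U k j) * e j
    exact Finset.dvd_sum (fun k _ => Dvd.dvd.mul_left (hord k) _)
  have hu : IsUnit (e j0) := PowerSeries.isUnit_iff_constantCoeff.2 (IsUnit.mk0 _ hj0)
  rw [hu.dvd_mul_right, ← RingHom.map_det, PowerSeries.X_pow_dvd_iff] at h2
  have h3 := h2 B.det.natDegree (by omega)
  rw [coeToPowerSeries.ringHom_apply, coeff_coe] at h3
  exact hdet (leadingCoeff_eq_zero.1 h3)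

end Core

end Vale.Agent.P314
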