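import Mathlib

namespace Vale.Agent.P314

open Computability

universe u

/-- Noncommutative formulas over `F` in the variables `x_0, …, x_(n-1)`: binary trees whose leaves
are variables or scalars and whose internal vertices are addition or ordered
multiplication gates. -/
inductive NCFormula (F : Type u) (n : ℕ) : Type u
  | var (i : Fin n) : NCFormula F n
  | const (a : F) : NCFormula F n
  | add (φ ψ : NCFormula F n) : NCFormula F n
  | mul (φ ψ : NCFormula F n) : NCFormula F n

/-- The size of a formula: the number of vertices, leaves included. -/
def NCFormula.size {F : Type u} {n : ℕ} : NCFormula F n → ℕ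
  | .var _ => 1
  | .const _ => 1
  | .add φ ψ => φ.size + ψ.size + 1
  | .mul φ ψ => φ.size + ψ.size + 1

/-- The element of the free associative algebra computed by a formula. -/
noncomputable def NCFormula.poly {F : Type u} [Field F] {n : ℕ} :
    NCFormula F n → FreeAlgebra F (Fin n)
  | .var i => FreeAlgebra.ι F i
  | .const a => algebraMap F (FreeAlgebra F (Fin n)) a
  | .add φ ψ => φ.poly + ψ.poly
  | .mul φ ψ => φ.poly * ψ.poly

/-- A tuple of `n` square matrices of a common dimension `d` over `F`. -/
def MatTuple (F : Type u) (n : ℕ) : Type u :=
  Σ d : ℕ, Fin n → Matrix (Fin d) (Fin d) F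

/-- `H` is a hitting set for formulas of size at most `s` in `n` variables: every nonzero
polynomial computed by such a formula has a nonzero matrix evaluation at some tuple of `H`. -/
def IsHittingSet {F : Type u} [Field F] (n s : ℕ) (H : List (MatTuple F n)) : Prop :=
  ∀ φ : NCFormula F n, φ.size ≤ s → φ.poly ≠ 0 →
    ∃ T ∈ H, FreeAlgebra.lift F T.2 φ.poly ≠ 0

/-- The input `(n, s)` in unary: `n` zeros followed by `s` ones. -/
def encodeInput (p : ℕ × ℕ) : List Γ' :=
  List.replicate p.1 (Γ'.bit false) ++ List.replicate p.2 (Γ'.bit true)

/-- A tuple is written as: opening bracket, the dimension in unary, a comma, then all entries of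
all matrices row by row (each entry in the binary encoding `enc`, followed by a comma),
closing bracket. -/
def encodeTuple {F : Type u} (enc : F → List Bool) {n : ℕ} (T : MatTuple F n) : List Γ' :=
  [Γ'.bra] ++ List.replicate T.1 (Γ'.bit true) ++ [Γ'.comma] ++
    ((List.finRange n).flatMap fun i => (List.finRange T.1).flatMap fun r =>
      (List.finRange T.1).flatMap fun c => (enc (T.2 i r c)).map Γ'.bit ++ [Γ'.comma]) ++
    [Γ'.ket]

/-- A list of tuples is written as the concatenation of its tuples. -/
def encodeTuples {F : Type u} (enc : F → List Bool) {n : ℕ} (H : List (MatTuple F n)) : List Γ' :=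
  H.flatMap (encodeTuple enc)

end Vale.Agent.P314
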