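import Vale.Agent.P314.Trunc
import Vale.Agent.Lib.H24.PolyTime

/-!
The explicit tuple, its hitting property and the program printing it.
-/

namespace Vale.Agent.P314

open Computability Vale.Agent.Lib.H24 Function

/-- Truncation order in `z`. -/
def pD (n s : ℕ) : ℕ := n * ((s + 1) * (s + 1)) + 1
/-- Truncation order in `t`. -/
def pM (n s : ℕ) : ℕ := pD n s * pD n s
/-- Truncation order in `y`. -/
def pC (n s : ℕ) : ℕ := n * pD n s + 1

/-- Enumeration of triples. -/
def eqv (D M Cc : ℕ) : Fin D × Fin M × Fin Cc ≃ Fin (D * (M * Cc)) :=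
  (Equiv.prodCongr (Equiv.refl _) finProdFinEquiv).trans finProdFinEquiv

/-- The hitting tuple. -/
def hitTuple (F : Type*) [Field F] (n s : ℕ) : MatTuple F n :=
  ⟨pD n s * (pM n s * pC n s), fun i =>
    Matrix.reindex (eqv _ _ _) (eqv _ _ _) (TM F (pD n s) (pM n s) (pC n s) i)⟩

theorem hitTuple_hits (F : Type*) [Field F] (n s : ℕ) (φ : NCFormula F n) (hs : φ.size ≤ s)
    (hφ : φ.poly ≠ 0) : FreeAlgebra.lift F (hitTuple F n s).2 φ.poly ≠ 0 := by
  have h := hit_TM (D := pD n s) (M := pM n s) (Cc := pC n s)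
    (by simp only [pD, pow_two]; omega) (by simp only [pM, pow_two]; omega)
    (by simp only [pC]; omega) φ hs hφ
  have e : FreeAlgebra.lift F (fun i : Fin n =>
      Matrix.reindex (eqv _ _ _) (eqv _ _ _) (TM F (pD n s) (pM n s) (pC n s) i)) =
      (Matrix.reindexAlgEquiv F F (eqv _ _ _)).toAlgHom.comp
        (FreeAlgebra.lift F (fun i : Fin n => TM F (pD n s) (pM n s) (pC n s) i)) := by
    ext1
    funext i
    simp
  intro h0
  apply h
  have h1 := h0
  change FreeAlgebra.lift F (fun i : Fin n =>
      Matrix.reindex (eqv _ _ _) (eqv _ _ _) (TM F (pD n s) (pM n s) (pC n s) i)) φ.poly = 0 at h1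
  rw [e] at h1
  exact (map_eq_zero_iff _ (Matrix.reindexAlgEquiv F F (eqv _ _ _)).injective).1 h1

theorem hitTuple_entries (F : Type*) [Field F] (n s : ℕ) (i : Fin n)
    (r c : Fin (pD n s * (pM n s * pC n s))) :
    (hitTuple F n s).2 i r c = 0 ∨ (hitTuple F n s).2 i r c = 1 := by
  change TM F _ _ _ i ((eqv _ _ _).symm r) ((eqv _ _ _).symm c) = 0 ∨
    TM F _ _ _ i ((eqv _ _ _).symm r) ((eqv _ _ _).symm c) = 1
  unfold TM
  split_ifs <;> simp

theorem flatMap_finRange {γ : Type*} (N : ℕ) (ψ : ℕ → List γ) :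
    (List.finRange N).flatMap (fun r => ψ r.val) = (List.range N).flatMap ψ := by
  rw [← List.map_coe_finRange_eq_range, List.flatMap_map]

theorem flatMap_range_mul {γ : Type*} (a b : ℕ) (φ : ℕ → ℕ → List γ) :
    (List.range (a * b)).flatMap (fun r => φ (r / b) (r % b)) =
      (List.range a).flatMap fun x => (List.range b).flatMap fun y => φ x y := by
  induction a with
  | zero => simp
  | succ a ih =>
    rw [add_mul, one_mul, List.range_add, List.flatMap_append, ih, List.range_succ,
      List.flatMap_append, List.flatMap_map]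
    congr 1
    simp only [List.flatMap_cons, List.flatMap_nil, List.append_nil]
    refine List.flatMap_congr (fun y hy => ?_)
    rw [List.mem_range] at hy
    have hb : 0 < b := by omega
    rw [mul_comm a b, Nat.mul_add_div hb, Nat.mul_add_mod, Nat.div_eq_of_lt hy,
      Nat.mod_eq_of_lt hy, add_zero]

theorem flatMap_eqv {γ : Type*} (D M Cc : ℕ) (φ : ℕ → ℕ → ℕ → List γ) :
    (List.finRange (D * (M * Cc))).flatMap (fun r =>
      φ ((eqv D M Cc).symm r).1 ((eqv D M Cc).symm r).2.1 ((eqv D M Cc).symm r).2.2) =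
      (List.range D).flatMap fun m => (List.range M).flatMap fun b =>
        (List.range Cc).flatMap fun c => φ m b c := by
  have := flatMap_finRange (D * (M * Cc))
    (fun r => φ (r / (M * Cc)) (r % (M * Cc) / Cc) (r % (M * Cc) % Cc))
  refine Eq.trans ?_ (this.trans ?_)
  · rfl
  · rw [flatMap_range_mul D (M * Cc) (fun x y => φ x (y / Cc) (y % Cc))]
    refine List.flatMap_congr (fun x _ => ?_)
    exact flatMap_range_mul M Cc (φ x)

/-- Emit a fixed string. -/
def emitList : List Γ' → G Γ'
  | [] => .nil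
  | γ :: w => .seq (.emit γ) (emitList w)

theorem den_emitList (w : List Γ') (e : ℕ → ℕ) : (emitList w).den e = w := by
  induction w with
  | nil => rfl
  | cons γ w ih => simp [emitList, G.den, ih]

/-- The number one. -/
def gOne : G Γ' := .emit default
/-- Product. -/
def gMul (g h : G Γ') : G Γ' := .loop none g h
/-- Distance. -/
def gDist (g h : G Γ') : G Γ' := .seq (.sub g h) (.sub h g)
/-- The first parameter. -/
def gD : G Γ' := .seq (gMul (.var 0) (gMul (.seq (.var 1) gOne) (.seq (.var 1) gOne))) gOne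
/-- The second parameter. -/
def gM : G Γ' := gMul gD gD
/-- The third parameter. -/
def gC : G Γ' := .seq (gMul (.var 0) gD) gOne
/-- The indicator of the condition. -/
def gCnt : G Γ' := .loop (some 9) (.seq (.var 4) gOne) (.sub gOne
  (.seq (.sub (.seq (.var 6) gOne) (.var 3))
    (.seq (gDist (.var 5) (.seq (.var 8) (gMul (.var 2) (.sub (.var 3) (.var 6)))))
      (gDist (.var 4) (.seq (.var 7) (gMul (.var 3) (.var 9)))))))
/-- One entry. -/
def gEntry (w0 w1 : List Γ') : G Γ' :=
  .seq (.loop none gCnt (emitList w1)) (.loop none (.sub gOne gCnt) (emitList w0))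
/-- The whole output. -/
def gAll (w0 w1 : List Γ') : G Γ' :=
  .seq (.seq (.seq (.seq (.emit .bra) (.loop none (gMul gD (gMul gM gC)) (.emit (.bit true))))
    (.emit .comma))
    (.loop (some 2) (.var 0) (.loop (some 3) gD (.loop (some 4) gM (.loop (some 5) gC
      (.loop (some 6) gD (.loop (some 7) gM (.loop (some 8) gC (gEntry w0 w1)))))))))
    (.emit .ket)

theorem len_gMul (g h : G Γ') (e : ℕ → ℕ) :
    ((gMul g h).den e).length = (g.den e).length * (h.den e).length := by
  simp [gMul, G.den, upd]

theorem len_gD (e : ℕ → ℕ) : (gD.den e).length = pD (e 0) (e 1) := by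
  simp [gD, G.den, len_gMul, gOne, pD]

theorem len_gM (e : ℕ → ℕ) : (gM.den e).length = pM (e 0) (e 1) := by
  simp [gM, len_gMul, len_gD, pM]

theorem len_gC (e : ℕ → ℕ) : (gC.den e).length = pC (e 0) (e 1) := by
  simp [gC, G.den, len_gMul, len_gD, gOne, pC]

theorem len_gCnt (e : ℕ → ℕ) : (gCnt.den e).length =
    if Cond (e 2) (e 3) (e 4) (e 5) (e 6) (e 7) (e 8) then 1 else 0 := by
  have h1 : (gCnt.den e).length = ∑ l ∈ Finset.range (e 4 + 1),
      (1 - ((e 6 + 1 - e 3) + (((e 5 - (e 8 + e 2 * (e 3 - e 6))) +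
        ((e 8 + e 2 * (e 3 - e 6)) - e 5)) +
        ((e 4 - (e 7 + e 3 * l)) + ((e 7 + e 3 * l) - e 4))))) := by
    simp only [gCnt, G.den, gOne, gDist, List.length_flatMap, List.length_append,
      List.length_replicate, len_gMul, List.length_singleton, upd]
    simp only [ne_eq, Nat.reduceEqDiff, not_false_eq_true, update_of_ne, update_self]
    rfl
  rw [h1]
  split_ifs with h
  · obtain ⟨h2, h3, h4, l0, h5⟩ := h
    have h6 : l0 ≤ e 3 * l0 := Nat.le_mul_of_pos_left _ (by omega)
    rw [Finset.sum_eq_single l0]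
    · omega
    · intro l _ hne
      have : e 3 * l ≠ e 3 * l0 := fun h => hne (Nat.eq_of_mul_eq_mul_left (by omega) h)
      omega
    · intro h; exfalso; apply h; rw [Finset.mem_range]; omega
  · refine Finset.sum_eq_zero (fun l _ => ?_)
    by_contra h'
    apply h
    refine ⟨by omega, by omega, by omega, l, by omega⟩

theorem den_gEntry (w0 w1 : List Γ') (e : ℕ → ℕ) : (gEntry w0 w1).den e =
    if Cond (e 2) (e 3) (e 4) (e 5) (e 6) (e 7) (e 8) then w1 else w0 := by
  simp only [gEntry, G.den, List.length_replicate, len_gCnt, den_emitList, gOne,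
    List.length_singleton]
  split_ifs <;> simp

theorem den_gAll {F : Type*} [Field F] (enc : F → List Bool) (p : ℕ × ℕ) :
    (gAll ((enc 0).map Γ'.bit ++ [Γ'.comma]) ((enc 1).map Γ'.bit ++ [Γ'.comma])).den (env2 p) =
      encodeTuples enc [hitTuple F p.1 p.2] := by
  obtain ⟨n, s⟩ := p
  have e0 : env2 (n, s) 0 = n := rfl
  have e1 : env2 (n, s) 1 = s := rfl
  simp only [encodeTuples, List.flatMap_cons, List.flatMap_nil, List.append_nil, encodeTuple,
    gAll, G.den, len_gMul, len_gD, len_gM, len_gC, den_gEntry, upd, List.length_replicate]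
  simp only [ne_eq, Nat.reduceEqDiff, not_false_eq_true, update_of_ne, update_self, e0, e1,
    OfNat.zero_ne_ofNat, OfNat.one_ne_ofNat]
  congr 2
  · congr 2
    have : ∀ N : ℕ, (List.range N).flatMap (fun _ => [Γ'.bit true]) =
        List.replicate N (Γ'.bit true) := by
      intro N
      induction N with
      | zero => rfl
      | succ N ih => rw [List.range_succ, List.flatMap_append, ih, List.replicate_succ']; rfl
    exact this _
  · rw [← flatMap_finRange]
    refine List.flatMap_congr (fun i _ => ?_)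
    rw [← flatMap_eqv]
    refine List.flatMap_congr (fun r _ => ?_)
    rw [← flatMap_eqv]
    refine List.flatMap_congr (fun c _ => ?_)
    simp only [hitTuple, Matrix.reindex_apply, Matrix.submatrix_apply, TM]
    split_ifs <;> rfl

theorem hitTuple_polyTime {F : Type*} [Field F] (enc : F → List Bool) :
    Nonempty (Turing.TM2ComputableInPolyTime encodeInput (fun w : List Γ' => w)
      (fun p : ℕ × ℕ => encodeTuples enc [hitTuple F p.1 p.2])) :=
  G.polyTime (a := Γ'.bit false) (b := Γ'.bit true) (by decide) _ _ (den_gAll enc)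

end Vale.Agent.P314
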