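import Vale.Agent.P314.Core
import Vale.Agent.P314.Defs

/-!
Left quotients in the free algebra, the dimension bound for formulas, and the order bound for
evaluations satisfying the `q`-difference equation.
-/

namespace Vale.Agent.P314

open Module

section Quot

variable (F : Type*) [Field F] {ι : Type*} [DecidableEq ι]

/-- The monomial of a word. -/
noncomputable def mon (l : List ι) : FreeAlgebra F ι := (l.map (FreeAlgebra.ι F)).prod

/-- The basis of words. -/
noncomputable def bL : Basis (List ι) F (FreeAlgebra F ι) :=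
  (FreeAlgebra.basisFreeMonoid F ι).reindex FreeMonoid.toList

omit [DecidableEq ι] in
theorem bL_apply (l : List ι) : bL F l = mon F l := by
  simp [bL, mon, FreeAlgebra.basisFreeMonoid, FreeAlgebra.equivMonoidAlgebraFreeMonoid,
    FreeMonoid.lift_apply]

/-- Left quotient by a letter. -/
noncomputable def dq (i : ι) : FreeAlgebra F ι →ₗ[F] FreeAlgebra F ι :=
  (bL F).constr F (fun l => match l with
    | [] => 0
    | j :: l' => if j = i then mon F l' else 0)

/-- Constant term. -/
noncomputable def ct : FreeAlgebra F ι →ₗ[F] F := (bL F).coord []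

variable {F}

omit [DecidableEq ι] in
theorem mon_cons (j : ι) (l : List ι) : mon F (j :: l) = FreeAlgebra.ι F j * mon F l := by
  simp [mon]

omit [DecidableEq ι] in
theorem mon_nil : mon F ([] : List ι) = 1 := by simp [mon]

theorem dq_mon_nil (i : ι) : dq F i (mon F []) = 0 := by
  rw [← bL_apply, dq, Basis.constr_basis]

theorem dq_mon_cons (i j : ι) (l : List ι) :
    dq F i (mon F (j :: l)) = if j = i then mon F l else 0 := by
  rw [← bL_apply, dq, Basis.constr_basis]

omit [DecidableEq ι] in
open Classical in
theorem ct_mon (l : List ι) : ct F (mon F l) = if l = [] then 1 else 0 := by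
  rw [← bL_apply, ct, Basis.coord_apply, Basis.repr_self, Finsupp.single_apply]

theorem dq_ι_mul (i j : ι) (g : FreeAlgebra F ι) :
    dq F i (FreeAlgebra.ι F j * g) = if j = i then g else 0 := by
  have : (dq F i).comp (LinearMap.mulLeft F (FreeAlgebra.ι F j)) =
      if j = i then LinearMap.id else 0 := by
    refine (bL F).ext (fun l => ?_)
    rw [bL_apply, LinearMap.comp_apply, LinearMap.mulLeft_apply, ← mon_cons, dq_mon_cons]
    split_ifs <;> simp
  have h := LinearMap.congr_fun this g
  rw [LinearMap.comp_apply, LinearMap.mulLeft_apply] at h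
  rw [h]; split_ifs <;> simp

theorem dq_one (i : ι) : dq F i 1 = 0 := by rw [← mon_nil, dq_mon_nil]

theorem decomp [Fintype ι] (f : FreeAlgebra F ι) :
    f = ct F f • 1 + ∑ i, FreeAlgebra.ι F i * dq F i f := by
  have : (LinearMap.id : FreeAlgebra F ι →ₗ[F] FreeAlgebra F ι) =
      (ct F).smulRight 1 + ∑ i, (LinearMap.mulLeft F (FreeAlgebra.ι F i)).comp (dq F i) := by
    refine (bL F).ext (fun l => ?_)
    rw [bL_apply]
    simp only [LinearMap.id_apply, LinearMap.add_apply, LinearMap.smulRight_apply,
      LinearMap.sum_apply, LinearMap.comp_apply, LinearMap.mulLeft_apply, ct_mon]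
    cases l with
    | nil => simp [mon_nil, dq_one]
    | cons j l => simp [dq_mon_cons, ← mon_cons]
  have h := LinearMap.congr_fun this f
  simpa using h

theorem dq_mul [Fintype ι] (i : ι) (f g : FreeAlgebra F ι) :
    dq F i (f * g) = dq F i f * g + ct F f • dq F i g := by
  conv_lhs => rw [decomp f]
  simp only [add_mul, Finset.sum_mul, mul_assoc, map_add, map_sum, dq_ι_mul, smul_mul_assoc,
    one_mul, map_smul]
  simp [add_comm]

theorem repr_dq (i : ι) (f : FreeAlgebra F ι) (l : List ι) :
    (bL F).repr (dq F i f) l = (bL F).repr f (i :: l) := by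
  have : ((bL F).coord l).comp (dq F i) = (bL F).coord (i :: l) := by
    refine (bL F).ext (fun m => ?_)
    rw [LinearMap.comp_apply, Basis.coord_apply, Basis.coord_apply, Basis.repr_self, bL_apply]
    cases m with
    | nil => simp [dq_mon_nil]
    | cons j m =>
      rw [dq_mon_cons]
      split_ifs with h
      · subst h
        rw [← bL_apply, Basis.repr_self]
        simp [Finsupp.single_apply]
      · simp [h]
  exact LinearMap.congr_fun this f

/-- Left quotient by a word. -/
noncomputable def dw (u : List ι) (f : FreeAlgebra F ι) : FreeAlgebra F ι :=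
  u.foldl (fun v i => dq F i v) f

theorem dw_concat (u : List ι) (i : ι) (f : FreeAlgebra F ι) :
    dw (u ++ [i]) f = dq F i (dw u f) := by simp [dw]

theorem repr_dw (u : List ι) : ∀ (f : FreeAlgebra F ι) (l : List ι),
    (bL F).repr (dw u f) l = (bL F).repr f (u ++ l) := by
  induction u with
  | nil => intro f l; rfl
  | cons i u ih =>
    intro f l
    have : dw (i :: u) f = dw u (dq F i f) := rfl
    rw [this, ih, repr_dq]; rfl

theorem dw_nilp (f : FreeAlgebra F ι) : ∃ N, ∀ u : List ι, N ≤ u.length → dw u f = 0 := by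
  refine ⟨((bL F).repr f).support.sup List.length + 1, fun u hu => ?_⟩
  apply (bL F).repr.injective
  ext l
  rw [repr_dw, map_zero, Finsupp.zero_apply]
  by_contra h
  have := Finset.le_sup (f := List.length) (Finsupp.mem_support_iff.2 h)
  simp at this
  omega

theorem exists_ct_ne_zero {f : FreeAlgebra F ι} (hf : f ≠ 0) : ∃ u, ct F (dw u f) ≠ 0 := by
  by_contra h
  push Not at h
  apply hf
  apply (bL F).repr.injective
  ext l
  have := h l
  rw [ct, Basis.coord_apply, repr_dw] at this
  simpa using this

end Quot

theorem formula_span {F : Type*} [Field F] {n : ℕ} (φ : NCFormula F n) :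
    ∃ S : Finset (FreeAlgebra F (Fin n)), S.card ≤ φ.size + 1 ∧
      φ.poly ∈ Submodule.span F (S : Set (FreeAlgebra F (Fin n))) ∧
      ∀ i, ∀ v ∈ Submodule.span F (S : Set (FreeAlgebra F (Fin n))),
        dq F i v ∈ Submodule.span F (S : Set (FreeAlgebra F (Fin n))) := by
  classical
  have red : ∀ (S : Finset (FreeAlgebra F (Fin n))),
      (∀ i, ∀ v ∈ S, dq F i v ∈ Submodule.span F (S : Set (FreeAlgebra F (Fin n)))) →
      ∀ i, ∀ v ∈ Submodule.span F (S : Set (FreeAlgebra F (Fin n))),
        dq F i v ∈ Submodule.span F (S : Set (FreeAlgebra F (Fin n))) := by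
    intro S h i v hv
    have : Submodule.span F (S : Set (FreeAlgebra F (Fin n))) ≤
        (Submodule.span F (S : Set (FreeAlgebra F (Fin n)))).comap (dq F i) :=
      Submodule.span_le.2 (fun v hv => h i v hv)
    exact this hv
  induction φ with
  | var j =>
    refine ⟨{FreeAlgebra.ι F j, 1}, Finset.card_le_two, Submodule.subset_span (by
      simp [NCFormula.poly]), red _ ?_⟩
    intro i v hv
    simp only [Finset.mem_insert, Finset.mem_singleton] at hv
    rcases hv with rfl | rfl
    · have := dq_ι_mul (F := F) i j 1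
      rw [mul_one] at this
      rw [this]
      split_ifs
      · exact Submodule.subset_span (by simp)
      · exact Submodule.zero_mem _
    · rw [dq_one]; exact Submodule.zero_mem _
  | const a =>
    refine ⟨{1}, by simp, ?_, red _ ?_⟩
    · rw [NCFormula.poly, Algebra.algebraMap_eq_smul_one]
      exact Submodule.smul_mem _ _ (Submodule.subset_span (by simp))
    · intro i v hv
      rw [Finset.mem_singleton.1 hv, dq_one]; exact Submodule.zero_mem _
  | add φ ψ ih1 ih2 =>
    obtain ⟨S1, c1, m1, d1⟩ := ih1
    obtain ⟨S2, c2, m2, d2⟩ := ih2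
    have l1 : Submodule.span F (S1 : Set (FreeAlgebra F (Fin n))) ≤
      Submodule.span F ((S1 ∪ S2 : Finset _) : Set (FreeAlgebra F (Fin n))) :=
      Submodule.span_mono (by simp)
    have l2 : Submodule.span F (S2 : Set (FreeAlgebra F (Fin n))) ≤
      Submodule.span F ((S1 ∪ S2 : Finset _) : Set (FreeAlgebra F (Fin n))) :=
      Submodule.span_mono (by simp)
    refine ⟨S1 ∪ S2, (Finset.card_union_le _ _).trans (by simp only [NCFormula.size]; omega),
      Submodule.add_mem _ (l1 m1) (l2 m2), red _ ?_⟩
    intro i v hv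
    rcases Finset.mem_union.1 hv with h | h
    · exact l1 (d1 i v (Submodule.subset_span h))
    · exact l2 (d2 i v (Submodule.subset_span h))
  | mul φ ψ ih1 ih2 =>
    obtain ⟨S1, c1, m1, d1⟩ := ih1
    obtain ⟨S2, c2, m2, d2⟩ := ih2
    have l1 : ∀ v ∈ Submodule.span F (S1 : Set (FreeAlgebra F (Fin n))), v * ψ.poly ∈
        Submodule.span F ((S1.image (· * ψ.poly) ∪ S2 : Finset _) :
          Set (FreeAlgebra F (Fin n))) := by
      intro v hv
      have : Submodule.span F (S1 : Set (FreeAlgebra F (Fin n))) ≤
          (Submodule.span F ((S1.image (· * ψ.poly) ∪ S2 : Finset _) :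
          Set (FreeAlgebra F (Fin n)))).comap (LinearMap.mulRight F ψ.poly) :=
        Submodule.span_le.2 (fun v hv => Submodule.subset_span (by
          simp only [Finset.coe_union, Finset.coe_image, Set.mem_union, Set.mem_image]
          exact Or.inl ⟨v, hv, rfl⟩))
      exact this hv
    have l2 : Submodule.span F (S2 : Set (FreeAlgebra F (Fin n))) ≤
      Submodule.span F ((S1.image (· * ψ.poly) ∪ S2 : Finset _) :
        Set (FreeAlgebra F (Fin n))) :=
      Submodule.span_mono (by simp)
    refine ⟨S1.image (· * ψ.poly) ∪ S2, (Finset.card_union_le _ _).trans ?_, l1 _ m1, red _ ?_⟩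
    · have := Finset.card_image_le (s := S1) (f := (· * ψ.poly))
      simp only [NCFormula.size]; omega
    · intro i v hv
      rcases Finset.mem_union.1 hv with h | h
      · obtain ⟨v, hv', rfl⟩ := Finset.mem_image.1 h
        rw [dq_mul]
        exact Submodule.add_mem _ (l1 _ (d1 i v (Submodule.subset_span hv')))
          (Submodule.smul_mem _ _ (l2 (d2 i _ m2)))
      · exact l2 (d2 i v (Submodule.subset_span h))

theorem formula_order {F K : Type*} [Field F] [Field K] [Algebra F K] {n s : ℕ}
    (φ : NCFormula F n) (hs : φ.size ≤ s) (hφ : φ.poly ≠ 0)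
    {q : K} (hq : q ≠ 0) (hq1 : ∀ m : ℕ, q ^ m = 1 → m = 0)
    (a : Fin n → K) (ha : ∀ i, a i ≠ 0) (horb : ∀ i j (m : ℕ), a i * q ^ m = a j → i = j)
    (γ : Fin n → PowerSeries K)
    (hγ : ∀ i, γ i * (1 - PowerSeries.C (a i) * PowerSeries.X) =
      PowerSeries.C (a i) * PowerSeries.X)
    (E : FreeAlgebra F (Fin n) → PowerSeries K)
    (hadd : ∀ u v, E (u + v) = E u + E v)
    (hsmul : ∀ (c : F) v, E (c • v) = PowerSeries.C (algebraMap F K c) * E v)
    (hE : ∀ v, E v - PowerSeries.rescale q (E v) = ∑ i, γ i * E (dq F i v))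
    (hc : ∀ v, PowerSeries.constantCoeff (E v) = algebraMap F K (ct F v))
    (D : ℕ) (hD : n * (s + 1) ^ 2 < D) : ¬ PowerSeries.X ^ D ∣ E φ.poly := by
  classical
  obtain ⟨S, hcard, hmem, hcl⟩ := formula_span φ
  set f := φ.poly with hf
  set V := Submodule.span F (Set.range (fun u : List (Fin n) => dw u f)) with hV
  have hVS : V ≤ Submodule.span F (S : Set (FreeAlgebra F (Fin n))) := by
    rw [hV, Submodule.span_le]
    rintro _ ⟨u, rfl⟩
    induction u using List.reverseRecOn with
    | nil => exact hmem
    | append_singleton u i ih =>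
      change dw (u ++ [i]) f ∈ _
      rw [dw_concat]; exact hcl i _ ih
  have hfin : FiniteDimensional F V := Submodule.finiteDimensional_of_le hVS
  have hw : finrank F V ≤ s + 1 :=
    (Submodule.finrank_mono hVS).trans ((finrank_span_finset_le_card S).trans (by omega))
  have hVd : ∀ i, ∀ v ∈ V, dq F i v ∈ V := by
    intro i v hv
    have : V ≤ V.comap (dq F i) := by
      refine Submodule.span_le.2 ?_
      rintro _ ⟨u, rfl⟩
      exact Submodule.subset_span ⟨u ++ [i], dw_concat u i f⟩
    exact this hv
  have hVu : ∀ u, dw u f ∈ V := fun u => Submodule.subset_span ⟨u, rfl⟩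
  let b := Module.finBasis F V
  let δ : Fin n → V →ₗ[F] V := fun i => (dq F i).restrict (hVd i)
  have E0 : E 0 = 0 := by simpa using hsmul 0 0
  have Esum : ∀ (v : V), E v = ∑ j, PowerSeries.C (algebraMap F K (b.repr v j)) * E (b j) := by
    intro v
    have h1 : ∀ (T : Finset (Fin (finrank F V))) (c : Fin (finrank F V) → F),
        E (∑ j ∈ T, c j • b j : V) = ∑ j ∈ T, PowerSeries.C (algebraMap F K (c j)) * E (b j) := by
      intro T c
      induction T using Finset.induction_on with
      | empty => simpa using E0
      | insert j T hj ih =>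
        rw [Finset.sum_insert hj, Finset.sum_insert hj, Submodule.coe_add, hadd, ih,
          Submodule.coe_smul, hsmul]
    conv_lhs => rw [← b.sum_repr v]
    exact h1 _ _
  obtain ⟨N, hN⟩ := dw_nilp f
  obtain ⟨u0, hu0⟩ := exists_ct_ne_zero hφ
  obtain ⟨j0, hj0⟩ : ∃ j0, PowerSeries.constantCoeff (E (b j0)) ≠ 0 := by
    by_contra h
    push Not at h
    have h1 := congrArg PowerSeries.constantCoeff (Esum ⟨_, hVu u0⟩)
    rw [hc] at h1
    simp [h, hu0] at h1
  have key := core_order hq hq1 a ha horb
    (fun i k j => algebraMap F K (b.repr (δ i (b k)) j))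
    (fun u j => algebraMap F K (b.repr ⟨dw u f, hVu u⟩ j))
    (by
      intro u i j
      have : (⟨dw (u ++ [i]) f, hVu _⟩ : V) = δ i ⟨dw u f, hVu u⟩ :=
        Subtype.ext (dw_concat u i f)
      have h2 : ∀ v : V, δ i v = ∑ k, b.repr v k • δ i (b k) := by
        intro v
        conv_lhs => rw [← b.sum_repr v]
        simp only [map_sum, map_smul]
      rw [this, h2]
      simp only [map_sum, map_smul, Finsupp.finsetSum_apply, Finsupp.smul_apply, smul_eq_mul,
        map_mul])
    N
    (by
      intro u hu
      funext j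
      have : (⟨dw u f, hVu u⟩ : V) = 0 := Subtype.ext (hN u hu)
      simp [this])
    (by
      have h1 : ∀ (v : FreeAlgebra F (Fin n)) (hv : v ∈ V),
          (fun j => algebraMap F K (b.repr ⟨v, hv⟩ j)) ∈ Submodule.span K (Set.range
            (fun (u : List (Fin n)) j => algebraMap F K (b.repr ⟨dw u f, hVu u⟩ j))) := by
        intro v hv
        induction hv using Submodule.span_induction with
        | mem v hv => obtain ⟨u, rfl⟩ := hv; exact Submodule.subset_span ⟨u, rfl⟩
        | zero =>
          convert Submodule.zero_mem _ using 1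
          funext j
          have : (⟨0, Submodule.zero_mem _⟩ : V) = 0 := rfl
          simp [this]
        | add v v' hv hv' h h' =>
          convert Submodule.add_mem _ h h' using 1
          funext j
          have : (⟨v + v', Submodule.add_mem _ hv hv'⟩ : V) = ⟨v, hv⟩ + ⟨v', hv'⟩ := rfl
          simp only [this, map_add, Finsupp.add_apply, Pi.add_apply]
        | smul c v hv h =>
          convert Submodule.smul_mem _ (algebraMap F K c) h using 1
          funext j
          have : (⟨c • v, Submodule.smul_mem _ c hv⟩ : V) = c • ⟨v, hv⟩ := rfl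
          simp only [this, map_smul, Finsupp.smul_apply, Pi.smul_apply, smul_eq_mul, map_mul]
      rw [eq_top_iff, ← (Pi.basisFun K _).span_eq, Submodule.span_le]
      rintro _ ⟨j, rfl⟩
      have h2 : (Pi.basisFun K _) j = fun k => algebraMap F K (b.repr ⟨b j, (b j).2⟩ k) := by
        funext k
        simp [Pi.single_apply, Finsupp.single_apply, eq_comm]
      rw [h2]
      exact h1 (b j) (b j).2)
    γ hγ (fun j => E (b j))
    (by
      intro k
      rw [hE]
      refine Finset.sum_congr rfl (fun i _ => ?_)
      rw [← Esum]; rfl)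
    j0 hj0 D (by
      rw [Fintype.card_fin]
      exact lt_of_le_of_lt (Nat.mul_le_mul_left _ (Nat.pow_le_pow_left hw 2)) hD)
  rw [← Esum] at key
  exact key

end Vale.Agent.P314
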