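import Vale.Agent.P314.Quot

/-!
The operators on power series in three variables and their truncations to `0/1` matrices.
-/

namespace Vale.Agent.P314

open PowerSeries

section Trunc

variable (F : Type*) [Field F]

/-- The coefficient ring `F[y][[t]]`. -/
abbrev RR := PowerSeries (Polynomial F)

/-- The inverse of `1 - t ^ m`. -/
noncomputable def hh (m : ℕ) : RR F := PowerSeries.mk fun b => if m ∣ b then 1 else 0

/-- The series `a z / (1 - a z)` with `a = y ^ i`. -/
noncomputable def gam (i : ℕ) : PowerSeries (RR F) :=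
  PowerSeries.mk fun j => if j = 0 then 0 else PowerSeries.C (Polynomial.X ^ (i * j))

/-- The operator attached to the variable number `i`. -/
noncomputable def TT (i : ℕ) : Module.End F (PowerSeries (RR F)) where
  toFun g := PowerSeries.mk fun m => hh F m * coeff m (gam F i * g)
  map_add' g g' := by ext1 m; simp [mul_add]
  map_smul' c g := by ext1 m; simp

variable {F}

theorem hh_mul {m : ℕ} (hm : m ≠ 0) : (1 - X ^ m) * hh F m = 1 := by
  ext1 b
  rw [sub_mul, one_mul, map_sub, coeff_X_pow_mul', coeff_one]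
  simp only [hh, coeff_mk]
  by_cases hb : b = 0
  · subst hb; simp [hm]
  · by_cases h1 : m ≤ b
    · have : m ∣ b - m ↔ m ∣ b := by
        obtain ⟨k, rfl⟩ := Nat.exists_eq_add_of_le h1
        simp
      simp [hb, h1, this]
    · have : ¬ m ∣ b := fun h => h1 (Nat.le_of_dvd (Nat.pos_of_ne_zero hb) h)
      simp [hb, h1, this]

theorem gam_mul (i : ℕ) : gam F i * (1 - C (C (Polynomial.X ^ i)) * X) =
    C (C (Polynomial.X ^ i)) * X := by
  ext1 j
  rw [mul_sub, mul_one, map_sub, ← mul_assoc]
  cases j with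
  | zero => simp [gam]
  | succ j =>
    rw [coeff_succ_mul_X, coeff_succ_mul_X, coeff_mul_C, coeff_C]
    simp only [gam, coeff_mk]
    by_cases hj : j = 0
    · subst hj; simp
    · simp [hj, -map_mul, ← pow_add, mul_add]

theorem coeff_zero_gam_mul (i : ℕ) (g : PowerSeries (RR F)) : coeff 0 (gam F i * g) = 0 := by
  simp [gam]

theorem coeff_TT (i m : ℕ) (g : PowerSeries (RR F)) :
    coeff m (TT F i g) = hh F m * coeff m (gam F i * g) :=
  coeff_mk m (fun m => hh F m * coeff m (gam F i * g))

theorem TT_eq (i : ℕ) (g : PowerSeries (RR F)) :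
    TT F i g - rescale X (TT F i g) = gam F i * g := by
  ext1 m
  rw [map_sub, coeff_rescale, coeff_TT]
  by_cases hm : m = 0
  · subst hm; rw [coeff_zero_gam_mul]; simp
  · linear_combination (coeff m (gam F i * g)) * hh_mul (F := F) hm

/-- Polynomial in `t` of degree at most `d`. -/
def Pol (d : ℕ) (x : RR F) : Prop :=
  ∃ p : Polynomial (Polynomial F), p.natDegree ≤ d ∧ (p : RR F) = x

theorem Pol.mono {d d' : ℕ} {x : RR F} (h : Pol d x) (hd : d ≤ d') : Pol d' x := by
  obtain ⟨p, h1, h2⟩ := h; exact ⟨p, h1.trans hd, h2⟩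

theorem Pol.add {d : ℕ} {x y : RR F} (h : Pol d x) (h' : Pol d y) : Pol d (x + y) := by
  obtain ⟨p, h1, rfl⟩ := h
  obtain ⟨p', h1', rfl⟩ := h'
  exact ⟨p + p', (Polynomial.natDegree_add_le _ _).trans (max_le h1 h1'), by simp⟩

theorem Pol.mul {d d' : ℕ} {x y : RR F} (h : Pol d x) (h' : Pol d' y) : Pol (d + d') (x * y) := by
  obtain ⟨p, h1, rfl⟩ := h
  obtain ⟨p', h1', rfl⟩ := h'
  exact ⟨p * p', Polynomial.natDegree_mul_le.trans (add_le_add h1 h1'), by simp⟩

theorem Pol.const (a : Polynomial F) : Pol 0 (C a : RR F) := ⟨Polynomial.C a, by simp, by simp⟩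

theorem Pol.zero (d : ℕ) : Pol d (0 : RR F) := ⟨0, by simp, by simp⟩

theorem Pol.sum {α : Type*} {d : ℕ} (s : Finset α) (f : α → RR F) (h : ∀ a ∈ s, Pol d (f a)) :
    Pol d (∑ a ∈ s, f a) :=
  Finset.sum_induction f (Pol d) (fun _ _ => Pol.add) (Pol.zero d) h

theorem Pol.lin (l : ℕ) : Pol l (1 - X ^ l : RR F) :=
  ⟨1 - Polynomial.X ^ l, by compute_degree, by simp⟩

theorem Pol.prod (r k m : ℕ) (h : r + k ≤ m) :
    Pol (k * m) (∏ l ∈ Finset.range k, (1 - X ^ (r + l + 1)) : RR F) := by
  induction k with
  | zero => simpa using Pol.const (1 : Polynomial F)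
  | succ k ih =>
    rw [Finset.prod_range_succ, add_mul, one_mul]
    exact (ih (by omega)).mul ((Pol.lin _).mono (by omega))

/-- Coefficients of degree at most `d` in `y`. -/
def YD (d : ℕ) (x : RR F) : Prop := ∀ b, (coeff b x).natDegree ≤ d

theorem YD.mono {d d' : ℕ} {x : RR F} (h : YD d x) (hd : d ≤ d') : YD d' x :=
  fun b => (h b).trans hd

theorem YD.add {d : ℕ} {x y : RR F} (h : YD d x) (h' : YD d y) : YD d (x + y) := fun b => by
  rw [map_add]; exact (Polynomial.natDegree_add_le _ _).trans (max_le (h b) (h' b))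

theorem YD.mul {d d' : ℕ} {x y : RR F} (h : YD d x) (h' : YD d' y) : YD (d + d') (x * y) :=
  fun b => by
    rw [coeff_mul]
    exact Polynomial.natDegree_sum_le_of_forall_le _ _ (fun p _ =>
      Polynomial.natDegree_mul_le.trans (add_le_add (h _) (h' _)))

theorem YD.zero (d : ℕ) : YD d (0 : RR F) := fun b => by simp

theorem YD.sum {α : Type*} {d : ℕ} (s : Finset α) (f : α → RR F) (h : ∀ a ∈ s, YD d (f a)) :
    YD d (∑ a ∈ s, f a) :=
  Finset.sum_induction f (YD d) (fun _ _ => YD.add) (YD.zero d) h

theorem YD.const (a : Polynomial F) : YD a.natDegree (C a : RR F) := fun b => by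
  rw [coeff_C]; split_ifs <;> simp

theorem YD.hh (m : ℕ) : YD 0 (hh F m) := fun b => by
  simp only [P314.hh, coeff_mk]; split_ifs <;> simp

/-- The common denominator of the coefficient of `z ^ m`. -/
noncomputable def PiD (F : Type*) [Field F] (m : ℕ) : RR F :=
  ∏ l ∈ Finset.range m, (1 - X ^ (l + 1))

/-- The degree invariant. -/
def Good (n : ℕ) (g : PowerSeries (RR F)) : Prop :=
  ∀ m, Pol (m ^ 2) (PiD F m * coeff m g) ∧ YD (n * m) (coeff m g)

theorem Good.TT {n i : ℕ} (hi : i ≤ n) {g : PowerSeries (RR F)} (h : Good n g) :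
    Good n (TT F i g) := by
  intro m
  rw [coeff_TT]
  constructor
  · cases m with
    | zero => rw [coeff_zero_gam_mul]; simpa using Pol.zero 0
    | succ m =>
      have e1 : PiD F (m + 1) * (hh F (m + 1) * coeff (m + 1) (gam F i * g)) =
          PiD F m * coeff (m + 1) (gam F i * g) := by
        rw [PiD, Finset.prod_range_succ, mul_assoc, ← mul_assoc (1 - _), hh_mul (by omega),
          one_mul, PiD]
      rw [e1, coeff_mul, Finset.mul_sum]
      refine Pol.sum _ _ (fun p hp => ?_)
      obtain ⟨j, r⟩ := p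
      rw [Finset.HasAntidiagonal.mem_antidiagonal] at hp
      simp only [gam, coeff_mk] at hp ⊢
      split_ifs with hj
      · simpa using Pol.zero _
      · obtain ⟨k, rfl⟩ : ∃ k, m = r + k := ⟨m - r, by omega⟩
        have e2 : PiD F (r + k) = PiD F r * ∏ l ∈ Finset.range k, (1 - X ^ (r + l + 1)) := by
          rw [PiD, Finset.prod_range_add, PiD]
        have := ((Pol.const (Polynomial.X ^ (i * j))).mul (Pol.prod r k (r + k + 1)
          (by omega))).mul (h r).1
        rw [e2]
        convert this.mono (d' := (r + k + 1) ^ 2) (by nlinarith) using 1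
        ring
  · have := (YD.hh (F := F) m).mul (d' := n * m) (y := coeff m (gam F i * g)) (by
      rw [coeff_mul]
      refine YD.sum _ _ (fun p hp => ?_)
      obtain ⟨j, r⟩ := p
      rw [Finset.HasAntidiagonal.mem_antidiagonal] at hp
      simp only [gam, coeff_mk] at hp ⊢
      split_ifs with hj
      · simpa using YD.zero _
      · refine ((YD.const _).mul (h r).2).mono ?_
        rw [Polynomial.natDegree_X_pow, ← hp, mul_add]
        have := Nat.mul_le_mul_right j hi
        omega)
    simpa using this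

theorem Good.smul {n : ℕ} (c : F) {g : PowerSeries (RR F)} (h : Good n g) : Good n (c • g) := by
  intro m
  have e : coeff m (c • g) = C (Polynomial.C c) * coeff m g := by
    ext1 b
    simp [Polynomial.smul_eq_C_mul]
  rw [e]
  constructor
  · have := (Pol.const (Polynomial.C c)).mul (h m).1
    rw [zero_add] at this
    convert this using 1; ring
  · simpa using (YD.const (Polynomial.C c)).mul (h m).2

theorem Good.add {n : ℕ} {g g' : PowerSeries (RR F)} (h : Good n g) (h' : Good n g') :
    Good n (g + g') := by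
  intro m
  rw [map_add, mul_add]
  exact ⟨(h m).1.add (h' m).1, (h m).2.add (h' m).2⟩

theorem Good.one (n : ℕ) : Good n (1 : PowerSeries (RR F)) := by
  intro m
  rw [coeff_one]
  split_ifs with hm
  · subst hm
    exact ⟨by simpa [PiD] using Pol.const (1 : Polynomial F),
      by simpa using YD.const (1 : Polynomial F)⟩
  · exact ⟨by simpa using Pol.zero _, YD.zero _⟩

theorem good_lift {n : ℕ} (f : FreeAlgebra F (Fin n)) : ∀ g : PowerSeries (RR F), Good n g →
    Good n (FreeAlgebra.lift F (fun i : Fin n => TT F i) f g) := by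
  induction f using FreeAlgebra.induction with
  | grade0 a => intro g hg; simpa using hg.smul a
  | grade1 i => intro g hg; simpa using hg.TT i.2.le
  | mul a b ha hb => intro g hg; simpa using ha _ (hb _ hg)
  | add a b ha hb => intro g hg; simpa using (ha _ hg).add (hb _ hg)

theorem eq_zero_of_good {m n M Cc : ℕ} (hM : m ^ 2 < M) (hC : n * m < Cc) {x : RR F}
    (h1 : Pol (m ^ 2) (PiD F m * x)) (h2 : YD (n * m) x)
    (h3 : ∀ b < M, ∀ c < Cc, (coeff b x).coeff c = 0) : x = 0 := by
  have h4 : X ^ M ∣ x := by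
    rw [X_pow_dvd_iff]
    intro b hb
    ext c
    by_cases hc : c < Cc
    · exact h3 b hb c hc
    · exact Polynomial.coeff_eq_zero_of_natDegree_lt (by have := h2 b; omega)
  obtain ⟨p, hp, e⟩ := h1
  have h5 : X ^ M ∣ (p : RR F) := e ▸ Dvd.dvd.mul_left h4 _
  rw [X_pow_dvd_iff] at h5
  have h6 := h5 p.natDegree (by omega)
  rw [Polynomial.coeff_coe] at h6
  have h7 : p = 0 := Polynomial.leadingCoeff_eq_zero.1 h6
  rw [h7, Polynomial.coe_zero] at e
  refine (mul_eq_zero.1 e.symm).resolve_left (fun h => ?_)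
  have := congrArg constantCoeff h
  simp [PiD] at this

/-- The condition for an entry to be `1`. -/
def Cond (i m' b' c' m b c : ℕ) : Prop :=
  m < m' ∧ c' = c + i * (m' - m) ∧ b ≤ b' ∧ m' ∣ b' - b

instance (i m' b' c' m b c : ℕ) : Decidable (Cond i m' b' c' m b c) := by
  unfold Cond; infer_instance

theorem sum_antidiag_fin {α : Type*} [AddCommMonoid α] {N k : ℕ} (hk : k < N) (f : ℕ → ℕ → α) :
    ∑ p ∈ Finset.HasAntidiagonal.antidiagonal k, f p.1 p.2 =
      ∑ m : Fin N, if m.val ≤ k then f (k - m) m else 0 := by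
  rw [← Finset.Nat.sum_antidiagonal_swap]
  simp only [Prod.fst_swap, Prod.snd_swap]
  rw [Finset.Nat.sum_antidiagonal_eq_sum_range_succ (fun a b => f b a),
    Fin.sum_univ_eq_sum_range (fun m => if m ≤ k then f (k - m) m else 0) N, ← Finset.sum_filter]
  refine Finset.sum_congr ?_ (fun _ _ => rfl)
  ext m
  simp; omega

/-- The truncated matrix on triples. -/
def TM (F : Type*) [Field F] (D M Cc i : ℕ) :
    Matrix (Fin D × Fin M × Fin Cc) (Fin D × Fin M × Fin Cc) F :=
  fun x y => if Cond i x.1 x.2.1 x.2.2 y.1 y.2.1 y.2.2 then 1 else 0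

/-- The truncation map. -/
noncomputable def tau (D M Cc : ℕ) (g : PowerSeries (RR F)) : Fin D × Fin M × Fin Cc → F :=
  fun x => (coeff x.2.1 (coeff x.1 g)).coeff x.2.2

theorem tau_TT (D M Cc i : ℕ) (g : PowerSeries (RR F)) :
    tau D M Cc (TT F i g) = (TM F D M Cc i).mulVec (tau D M Cc g) := by
  funext ⟨m', b', c'⟩
  simp only [tau, coeff_TT, Matrix.mulVec, dotProduct, TM, Fintype.sum_prod_type]
  rw [coeff_mul, sum_antidiag_fin b'.2 (fun l b => coeff l (hh F m') *
    coeff b (coeff m' (gam F i * g))), Finset.sum_comm, Polynomial.finsetSum_coeff]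
  refine Finset.sum_congr rfl (fun b _ => ?_)
  rw [coeff_mul, sum_antidiag_fin m'.2 (fun j m => coeff j (gam F i) * coeff m g)]
  by_cases hb : b.val ≤ b'.val ∧ m'.val ∣ b'.val - b.val
  · rw [if_pos hb.1]
    simp only [hh, coeff_mk, if_pos hb.2, one_mul, map_sum, Polynomial.finsetSum_coeff]
    refine Finset.sum_congr rfl (fun m _ => ?_)
    by_cases hm : m.val < m'.val
    · rw [if_pos hm.le]
      simp only [gam, coeff_mk, if_neg (show m'.val - m.val ≠ 0 by omega), coeff_C_mul,
        Polynomial.coeff_X_pow_mul', Cond, hm, hb, true_and, and_true]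
      split_ifs with hc
      · rw [Finset.sum_eq_single ⟨c'.val - i * (m'.val - m.val), by omega⟩]
        · rw [if_pos (by simp only; omega), one_mul]
        · intro c _ hne
          rw [if_neg, zero_mul]
          intro h; apply hne; ext; simp only; omega
        · simp
      · symm
        refine Finset.sum_eq_zero (fun c _ => ?_)
        rw [if_neg (by omega), zero_mul]
    · have : ∀ c : Fin Cc, ¬ Cond i m' b' c' m b c := fun c h => hm h.1
      simp only [this, if_false, zero_mul, Finset.sum_const_zero]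
      split_ifs with h
      · have : m'.val - m.val = 0 := by omega
        simp [gam, this]
      · simp
  · have : ∀ (m : Fin D) (c : Fin Cc), ¬ Cond i m' b' c' m b c := fun m c h => hb h.2.2
    simp only [this, if_false, zero_mul, Finset.sum_const_zero]
    split_ifs with h
    · have : ¬ m'.val ∣ b'.val - b.val := fun h' => hb ⟨h, h'⟩
      simp [hh, this]
    · simp

theorem tau_lift {n : ℕ} (D M Cc : ℕ) (f : FreeAlgebra F (Fin n)) : ∀ g : PowerSeries (RR F),
    tau D M Cc (FreeAlgebra.lift F (fun i : Fin n => TT F i) f g) =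
      (FreeAlgebra.lift F (fun i : Fin n => TM F D M Cc i) f).mulVec (tau D M Cc g) := by
  induction f using FreeAlgebra.induction with
  | grade0 a =>
    intro g
    funext x
    simp [tau, Algebra.algebraMap_eq_smul_one, Matrix.smul_mulVec]
  | grade1 i => intro g; simpa using tau_TT D M Cc i g
  | mul a b ha hb => intro g; simp only [map_mul, Module.End.mul_apply, ha, hb,
      Matrix.mulVec_mulVec]
  | add a b ha hb =>
    intro g
    simp only [map_add, LinearMap.add_apply, Matrix.add_mulVec, ← ha, ← hb]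
    funext x
    simp [tau]

theorem hit_TM {n s D M Cc : ℕ} (hD : n * (s + 1) ^ 2 < D) (hM : D ^ 2 ≤ M) (hC : n * D < Cc)
    (φ : NCFormula F n) (hs : φ.size ≤ s) (hφ : φ.poly ≠ 0) :
    FreeAlgebra.lift F (fun i : Fin n => TM F D M Cc i) φ.poly ≠ 0 := by
  intro h0
  let K := FractionRing (RR F)
  let ψ : RR F →+* K := algebraMap (RR F) K
  have hinj : Function.Injective ψ := IsFractionRing.injective (RR F) K
  have hFK : ∀ c : F, algebraMap F K c = ψ (C (Polynomial.C c)) := fun c => by
    rw [IsScalarTower.algebraMap_apply F (RR F) K, PowerSeries.algebraMap_apply]; rfl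
  have hXi : ∀ i : ℕ, (Polynomial.X ^ i : Polynomial F) ≠ 0 :=
    fun i => pow_ne_zero _ Polynomial.X_ne_zero
  have hdec : ∀ v : FreeAlgebra F (Fin n), FreeAlgebra.lift F (fun i : Fin n => TT F i) v 1 =
      ct F v • 1 + ∑ i : Fin n, TT F i
        (FreeAlgebra.lift F (fun i : Fin n => TT F i) (dq F i v) 1) := by
    intro v
    conv_lhs => rw [decomp v]
    simp
  have hsm : ∀ (c : F) (g : PowerSeries (RR F)), c • g = C (C (Polynomial.C c)) * g := by
    intro c g
    ext m b : 2
    simp [Polynomial.smul_eq_C_mul]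
  refine formula_order (K := K) φ hs hφ (q := ψ X) ?_ ?_ (fun i => ψ (C (Polynomial.X ^ i.val)))
    ?_ ?_ (fun i => PowerSeries.map ψ (gam F i)) ?_
    (fun v => PowerSeries.map ψ (FreeAlgebra.lift F (fun i : Fin n => TT F i) v 1))
    ?_ ?_ ?_ ?_ D hD ?_
  · rw [map_ne_zero_iff _ hinj]; exact X_ne_zero
  · intro m hm
    rw [← map_pow, ← map_one ψ] at hm
    have := congrArg constantCoeff (hinj hm)
    by_contra h
    simp [h] at this
  · intro i
    rw [map_ne_zero_iff _ hinj]
    intro h
    have := congrArg constantCoeff h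
    simp at this
  · intro i j m h
    rw [← map_pow, ← map_mul] at h
    have h1 := congrArg constantCoeff (hinj h)
    by_cases hm : m = 0
    · subst hm
      simp only [pow_zero, mul_one, constantCoeff_C] at h1
      have := congrArg Polynomial.natDegree h1
      simp only [Polynomial.natDegree_X_pow] at this
      exact Fin.ext this
    · simp [hm] at h1
      exact absurd h1.symm (hXi _)
  · intro i
    have := congrArg (PowerSeries.map ψ) (gam_mul (F := F) i)
    simpa using this
  · intro u v; simp
  · intro c v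
    rw [map_smul, LinearMap.smul_apply, hsm, map_mul, map_C, hFK]
  · intro v
    have hr : ∀ g : PowerSeries (RR F), rescale (ψ X) (PowerSeries.map ψ g) =
        PowerSeries.map ψ (rescale X g) := by
      intro g; ext1 m
      rw [coeff_rescale, coeff_map, coeff_map, coeff_rescale, map_mul, map_pow]
    simp only [hr, ← map_sub, ← map_mul, ← map_sum]
    congr 1
    rw [hdec v, map_add, map_sum, add_sub_add_comm, ← Finset.sum_sub_distrib]
    simp only [TT_eq]
    have : (ct F v • 1 : PowerSeries (RR F)) - rescale X (ct F v • 1) = 0 := by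
      rw [hsm]
      ext1 m
      simp only [mul_one, map_sub, coeff_rescale, coeff_C]
      split_ifs with h <;> simp [h]
    rw [this, zero_add]
  · intro v
    rw [hdec v, hFK, ← coeff_zero_eq_constantCoeff_apply, coeff_map]
    congr 1
    simp only [map_add, map_sum, coeff_TT, coeff_zero_gam_mul, mul_zero, Finset.sum_const_zero,
      add_zero, hsm]
    simp
  · rw [X_pow_dvd_iff]
    intro m hm
    rw [coeff_map, map_eq_zero_iff _ hinj]
    have hg := good_lift φ.poly 1 (Good.one n) m
    refine eq_zero_of_good (M := M) (Cc := Cc) (by nlinarith) (by nlinarith) hg.1 hg.2 ?_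
    intro b hb c hc
    have := congrFun (tau_lift D M Cc φ.poly 1) (⟨m, hm⟩, ⟨b, hb⟩, ⟨c, hc⟩)
    rw [h0, Matrix.zero_mulVec] at this
    exact this

end Trunc

end Vale.Agent.P314
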