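import Mathlib

/-!
Independence lemma on words and the residue lemma for the dilation `z ↦ q z` of `K(z)`.
-/

namespace Vale.Agent.P314

open Polynomial

theorem words_lemma {L ι : Type*} [Field L] [Fintype ι] (σ : L ≃+* L) (g : ι → L)
    (hres : ∀ (c : L) (α : ι → L), (∀ i, σ (α i) = α i) → c - σ c = ∑ i, g i * α i →
      ∀ i, α i = 0)
    (M : Submodule L (List ι → L))
    (hS : ∀ l ∈ M, (fun u => σ.symm (l u - ∑ i, g i * l (u ++ [i]))) ∈ M)
    (h0 : ∀ l ∈ M, l [] = 0) :
    ∀ d : ℕ, ∀ l ∈ M, (∀ u : List ι, d ≤ u.length → l u = 0) → l = 0 := by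
  classical
  intro d
  induction d with
  | zero => intro l _ h; funext u; exact h u (Nat.zero_le _)
  | succ d ih =>
    have key : ∀ T : Finset (List ι), ∀ l ∈ M, (∀ u : List ι, d + 1 ≤ u.length → l u = 0) →
        (∀ u : List ι, u.length = d → u ∉ T → l u = 0) → l = 0 := by
      intro T
      induction T using Finset.induction_on with
      | empty =>
        intro l hl h1 h2
        refine ih l hl (fun u hu => ?_)
        rcases hu.eq_or_lt with h | h
        · exact h2 u h.symm (by simp)
        · exact h1 u h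
      | insert u0 T hu0 ihT =>
        intro l hl h1 h2
        by_cases hz : u0.length = d → l u0 = 0
        · refine ihT l hl h1 (fun u hu hT => ?_)
          by_cases h : u = u0
          · subst h; exact hz hu
          · exact h2 u hu (by simp [h, hT])
        exfalso
        push Not at hz
        obtain ⟨hlen, hne⟩ := hz
        set l1 : List ι → L := (l u0)⁻¹ • l with hl1
        have m1 : l1 ∈ M := M.smul_mem _ hl
        have a1 : ∀ u : List ι, d + 1 ≤ u.length → l1 u = 0 := fun u hu => by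
          simp [hl1, h1 u hu]
        have a2 : ∀ u : List ι, u.length = d → u ∉ insert u0 T → l1 u = 0 := fun u hu hT => by
          simp [hl1, h2 u hu hT]
        have a3 : l1 u0 = 1 := by simp [hl1, hne]
        have a4 : ∀ u : List ι, d ≤ u.length → ∑ i, g i * l1 (u ++ [i]) = 0 := fun u hu =>
          Finset.sum_eq_zero (fun i _ => by rw [a1 _ (by simp; omega), mul_zero])
        have z := ihT _ (M.sub_mem (hS l1 m1) m1)
          (fun u hu => by simp only [Pi.sub_apply, a4 u (by omega), a1 u hu]; simp)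
          (fun u hu hT => by
            by_cases h : u = u0
            · subst h; simp only [Pi.sub_apply, a4 u (by omega), a3]; simp
            · simp only [Pi.sub_apply, a4 u (by omega), a2 u hu (by simp [h, hT])]; simp)
        have z' : ∀ u, l1 u - σ (l1 u) = ∑ i, g i * l1 (u ++ [i]) := by
          intro u
          have := congrFun z u
          simp only [Pi.sub_apply, Pi.zero_apply, sub_eq_zero] at this
          have h3 := congrArg σ this
          rw [RingEquiv.apply_symm_apply] at h3
          rw [← h3]; ring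
        rcases List.eq_nil_or_concat u0 with h | ⟨u, i0, h⟩
        · rw [h, h0 l1 m1] at a3; exact zero_ne_one a3
        · rw [List.concat_eq_append] at h
          have hu : u.length + 1 = d := by rw [← hlen, h]; simp
          have := hres (l1 u) (fun i => l1 (u ++ [i])) (fun i => by
            have h4 := z' (u ++ [i])
            rw [a4 _ (by simp; omega), sub_eq_zero] at h4
            exact h4.symm) (z' u) i0
          rw [← h, a3] at this
          exact one_ne_zero this
    intro l hl h1
    exact key (List.finite_length_eq ι d).toFinset l hl h1 (fun u hu hT => by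
      simp [hu] at hT)

section Res

variable {K L : Type*} [Field K] [Field L] [Algebra K[X] L]

/-- Regularity of a rational function at a point. -/
def Reg (β : K) (c : L) : Prop :=
  ∃ p r : K[X], r.eval β ≠ 0 ∧ c * algebraMap K[X] L r = algebraMap K[X] L p

theorem Reg.poly (β : K) (p : K[X]) : Reg β (algebraMap K[X] L p) :=
  ⟨p, 1, by simp, by simp⟩

theorem Reg.add {β : K} {c d : L} (hc : Reg β c) (hd : Reg β d) : Reg β (c + d) := by
  obtain ⟨p, r, hr, e⟩ := hc
  obtain ⟨p', r', hr', e'⟩ := hd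
  refine ⟨p * r' + p' * r, r * r', by simp [hr, hr'], ?_⟩
  simp only [map_mul, map_add, ← e, ← e']; ring

theorem Reg.sub {β : K} {c d : L} (hc : Reg β c) (hd : Reg β d) : Reg β (c - d) := by
  obtain ⟨p, r, hr, e⟩ := hc
  obtain ⟨p', r', hr', e'⟩ := hd
  refine ⟨p * r' - p' * r, r * r', by simp [hr, hr'], ?_⟩
  simp only [map_mul, map_sub, ← e, ← e']; ring

theorem Reg.mul {β : K} {c d : L} (hc : Reg β c) (hd : Reg β d) : Reg β (c * d) := by
  obtain ⟨p, r, hr, e⟩ := hc
  obtain ⟨p', r', hr', e'⟩ := hd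
  refine ⟨p * p', r * r', by simp [hr, hr'], ?_⟩
  simp only [map_mul, ← e, ← e']; ring

theorem Reg.sum {ι : Type*} {β : K} (s : Finset ι) (f : ι → L) (h : ∀ i ∈ s, Reg β (f i)) :
    Reg β (∑ i ∈ s, f i) := by
  classical
  induction s using Finset.induction_on with
  | empty => simpa using Reg.poly (L := L) β 0
  | insert a s ha ih =>
    rw [Finset.sum_insert ha]
    exact (h a (by simp)).add (ih fun i hi => h i (by simp [hi]))

theorem Reg.dil {σ : L ≃+* L} {q : K}
    (hσ : ∀ p : K[X], σ (algebraMap K[X] L p) = algebraMap K[X] L (p.comp (C q * X)))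
    {β : K} {c : L} (h : Reg (q * β) c) : Reg β (σ c) := by
  obtain ⟨p, r, hr, e⟩ := h
  refine ⟨p.comp (C q * X), r.comp (C q * X), by simpa [eval_comp] using hr, ?_⟩
  rw [← hσ, ← hσ, ← map_mul, e]

theorem dil_symm {σ : L ≃+* L} {q : K} (hq : q ≠ 0)
    (hσ : ∀ p : K[X], σ (algebraMap K[X] L p) = algebraMap K[X] L (p.comp (C q * X))) :
    ∀ p : K[X], σ.symm (algebraMap K[X] L p) = algebraMap K[X] L (p.comp (C q⁻¹ * X)) := by
  intro p
  rw [RingEquiv.symm_apply_eq, hσ, comp_assoc]
  simp [← mul_assoc, ← C_mul, hq]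

variable [IsFractionRing K[X] L]

theorem exists_frac (c : L) : ∃ p r : K[X], r ≠ 0 ∧
    c * algebraMap K[X] L r = algebraMap K[X] L p := by
  obtain ⟨p, r, hr, rfl⟩ := IsFractionRing.div_surjective (A := K[X]) c
  have hr0 : r ≠ 0 := nonZeroDivisors.ne_zero hr
  refine ⟨p, r, hr0, div_mul_cancel₀ _ ?_⟩
  exact (map_ne_zero_iff _ (IsFractionRing.injective K[X] L)).2 hr0

theorem exists_reg (c : L) (f : ℕ → K) (hf : Function.Injective f) : ∃ m, Reg (f m) c := by
  obtain ⟨p, r, hr, e⟩ := exists_frac (K := K) c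
  by_contra h
  push Not at h
  have : Set.range f ⊆ {x | r.IsRoot x} := by
    rintro _ ⟨m, rfl⟩
    by_contra h'
    exact h m ⟨p, r, h', e⟩
  exact (Set.infinite_range_of_injective hf) ((finite_setOfPred_isRoot hr).subset this)

theorem pow_inj_of {q : K} (hq : q ≠ 0) (hq1 : ∀ m : ℕ, q ^ m = 1 → m = 0) :
    Function.Injective (fun m : ℕ => q ^ m) := by
  have key : ∀ a b : ℕ, a ≤ b → q ^ a = q ^ b → a = b := by
    intro a b hab h
    obtain ⟨k, rfl⟩ := Nat.exists_eq_add_of_le hab
    rw [pow_add] at h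
    have : q ^ k = 1 := by
      have h2 : q ^ a ≠ 0 := pow_ne_zero _ hq
      exact (mul_left_cancel₀ h2 (h.symm.trans (mul_one _).symm))
    rw [hq1 k this]; rfl
  intro a b h
  rcases le_total a b with hab | hab
  · exact key a b hab h
  · exact (key b a hab h.symm).symm

theorem fixed_const {σ : L ≃+* L} {q : K} (hq : q ≠ 0) (hq1 : ∀ m : ℕ, q ^ m = 1 → m = 0)
    (hσ : ∀ p : K[X], σ (algebraMap K[X] L p) = algebraMap K[X] L (p.comp (C q * X)))
    {α : L} (hα : σ α = α) : ∃ κ : K, α = algebraMap K[X] L (C κ) := by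
  have hinj := IsFractionRing.injective K[X] L
  have key : ∀ (c : L) (p r : K[X]), σ c = c → r ≠ 0 → p ≠ 0 →
      c * algebraMap K[X] L r = algebraMap K[X] L p → p.natDegree = r.natDegree := by
    intro c p r hc hr hp e
    have e' := congrArg σ e
    rw [map_mul, hc, hσ, hσ] at e'
    have e2 : p * r.comp (C q * X) = p.comp (C q * X) * r := by
      apply hinj
      rw [map_mul, map_mul, ← e, ← e']; ring
    have e3 := congrArg leadingCoeff e2
    have hd : (C q * X : K[X]).natDegree ≠ 0 := by rw [natDegree_C_mul_X _ hq]; omega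
    rw [leadingCoeff_mul, leadingCoeff_mul, leadingCoeff_comp hd, leadingCoeff_comp hd,
      leadingCoeff_C_mul_X] at e3
    have hp' := leadingCoeff_ne_zero.2 hp
    have hr' := leadingCoeff_ne_zero.2 hr
    have e4 : q ^ p.natDegree = q ^ r.natDegree := by
      have : p.leadingCoeff * r.leadingCoeff * q ^ p.natDegree =
        p.leadingCoeff * r.leadingCoeff * q ^ r.natDegree := by linear_combination -e3
      exact mul_left_cancel₀ (mul_ne_zero hp' hr') this
    exact pow_inj_of hq hq1 e4
  obtain ⟨p, r, hr, e⟩ := exists_frac (K := K) α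
  have hr2 : algebraMap K[X] L r ≠ 0 := (map_ne_zero_iff _ hinj).2 hr
  by_cases hp : p = 0
  · refine ⟨0, ?_⟩
    rw [hp, map_zero] at e
    simpa [hr2] using e
  have hd := key α p r hα hr hp e
  have hr' := leadingCoeff_ne_zero.2 hr
  set κ := p.leadingCoeff / r.leadingCoeff with hκ
  have hκ0 : κ ≠ 0 := div_ne_zero (leadingCoeff_ne_zero.2 hp) hr'
  have e5 : (α - algebraMap K[X] L (C κ)) * algebraMap K[X] L r =
      algebraMap K[X] L (p - C κ * r) := by
    rw [map_sub, map_mul, ← e]; ring
  by_cases hz : p - C κ * r = 0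
  · refine ⟨κ, ?_⟩
    rw [hz, map_zero] at e5
    exact sub_eq_zero.1 ((mul_eq_zero.1 e5).resolve_right hr2)
  exfalso
  have h6 := key _ _ r (by rw [map_sub, hα, hσ]; simp) hr hz e5
  have h7 : (p - C κ * r).degree < p.degree := by
    refine degree_sub_lt_left ?_ hp ?_
    · rw [degree_C_mul hκ0, degree_eq_natDegree hp, degree_eq_natDegree hr, hd]
    · rw [leadingCoeff_mul, leadingCoeff_C, hκ, div_mul_cancel₀ _ hr']
  have h8 := natDegree_lt_natDegree hz h7
  omega

theorem residue_lemma {ι : Type*} [Fintype ι] {σ : L ≃+* L} {q : K} (hq : q ≠ 0)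
    (hq1 : ∀ m : ℕ, q ^ m = 1 → m = 0)
    (hσ : ∀ p : K[X], σ (algebraMap K[X] L p) = algebraMap K[X] L (p.comp (C q * X)))
    (a : ι → K) (ha : ∀ i, a i ≠ 0) (horb : ∀ i j (m : ℕ), a i * q ^ m = a j → i = j)
    (g : ι → L)
    (hg : ∀ i, g i * algebraMap K[X] L (1 - C (a i) * X) = algebraMap K[X] L (C (a i) * X))
    (c : L) (α : ι → L) (hα : ∀ i, σ (α i) = α i) (h : c - σ c = ∑ i, g i * α i) :
    ∀ i, α i = 0 := by
  classical
  have hinj := IsFractionRing.injective K[X] L
  choose κ hκ using fun i => fixed_const hq hq1 hσ (hα i)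
  intro i
  by_contra hne
  have hai := ha i
  have hreg : ∀ (j : ι) (β : K), a j * β ≠ 1 → Reg β (g j * α j) := by
    intro j β hβ
    refine Reg.mul ⟨_, _, ?_, hg j⟩ (by rw [hκ j]; exact Reg.poly _ _)
    simpa [sub_eq_zero] using hβ.symm
  have hup : ∀ m : ℕ, Reg ((a i)⁻¹ * q ^ (m + 1)) (c - σ c) := by
    intro m
    rw [h]
    refine Reg.sum _ _ (fun j _ => hreg j _ (fun e => ?_))
    have e1 : a j * q ^ (m + 1) = a i := by field_simp at e; linear_combination e
    have := horb _ _ _ e1
    subst this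
    have := hq1 (m + 1) (mul_left_cancel₀ hai (e1.trans (mul_one _).symm))
    omega
  have hdown : ∀ m : ℕ, Reg ((a i)⁻¹ * q⁻¹ ^ (m + 1)) (c - σ c) := by
    intro m
    rw [h]
    refine Reg.sum _ _ (fun j _ => hreg j _ (fun e => ?_))
    have e1 : a i * q ^ (m + 1) = a j := by
      rw [inv_pow] at e
      have := pow_ne_zero (m + 1) hq
      field_simp at e; linear_combination -e
    have := horb _ _ _ e1
    subst this
    have := hq1 (m + 1) (mul_left_cancel₀ hai (e1.trans (mul_one _).symm))
    omega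
  have h1 : ∀ m : ℕ, Reg ((a i)⁻¹ * q ^ (m + 1)) c → Reg (q * (a i)⁻¹) c := by
    intro m
    induction m with
    | zero => intro hc; simpa [mul_comm] using hc
    | succ m ih =>
      intro hc
      apply ih
      have : Reg ((a i)⁻¹ * q ^ (m + 1)) (σ c) :=
        Reg.dil hσ (by convert hc using 1; ring)
      simpa using (hup m).add this
  have h2 : ∀ m : ℕ, Reg ((a i)⁻¹ * q⁻¹ ^ m) c → Reg (a i)⁻¹ c := by
    intro m
    induction m with
    | zero => intro hc; simpa using hc
    | succ m ih =>
      intro hc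
      apply ih
      have e1 : Reg ((a i)⁻¹ * q⁻¹ ^ (m + 1)) (σ c) := by simpa using hc.sub (hdown m)
      have := Reg.dil (dil_symm hq hσ) (β := (a i)⁻¹ * q⁻¹ ^ m) (c := σ c)
        (by convert e1 using 1; ring)
      simpa using this
  have hqi := pow_inj_of hq hq1
  obtain ⟨m1, hm1⟩ := exists_reg (K := K) c (fun m => (a i)⁻¹ * q ^ (m + 1)) (by
    intro x y hxy
    have := hqi (mul_left_cancel₀ (inv_ne_zero hai) hxy)
    omega)
  obtain ⟨m2, hm2⟩ := exists_reg (K := K) c (fun m => (a i)⁻¹ * q⁻¹ ^ m) (by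
    intro x y hxy
    have := mul_left_cancel₀ (inv_ne_zero hai) hxy
    rw [inv_pow, inv_pow, inv_inj] at this
    exact hqi this)
  have h3 : Reg (a i)⁻¹ (c - σ c) := (h2 _ hm2).sub (Reg.dil hσ (h1 _ hm1))
  have h4 : Reg (a i)⁻¹ (∑ j ∈ Finset.univ.erase i, g j * α j) := by
    refine Reg.sum _ _ (fun j hj => hreg j _ (fun e => ?_))
    have e1 : a j * q ^ 0 = a i := by field_simp at e; linear_combination e
    exact (Finset.mem_erase.1 hj).1 (horb _ _ _ e1)
  have h5 : Reg (a i)⁻¹ (g i * α i) := by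
    have := h3.sub h4
    rwa [h, ← Finset.add_sum_erase _ _ (Finset.mem_univ i), add_sub_cancel_right] at this
  obtain ⟨p, r, hr, e⟩ := h5
  have e2 : C (a i) * X * C (κ i) * r = p * (1 - C (a i) * X) := by
    apply hinj
    rw [map_mul, map_mul, ← hg i, ← hκ i, map_mul _ p, ← e]; ring
  have e3 := congrArg (eval (a i)⁻¹) e2
  have hκ0 : κ i ≠ 0 := by
    intro h0; apply hne; rw [hκ i, h0]; simp
  simp [hai, hκ0, hr] at e3

end Res

end Vale.Agent.P314
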